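import Vale.Agent.P011N.Cl.FR.Basic

/-!
The normal form of a group which permutes a frame.
-/

namespace Vale.Agent.P011N.Cl

open Vale.Agent.P011.MPQ Vale.Agent.P011.D4 Vale.Agent.P011.D4.Oct Vale.Agent.P011.E6 Equiv Module
open Vale.Agent.P011.E6.Alb

section rel

variable {F : Type} [Field F] [CharZero F] {A B C A' B' C' A'' B'' C'' : Fˣ} {γ γ' : Gl F}
  {ε ε' : Bool} {ν ν' ν₁ ν₂ l : F} {π π' : Perm (Fin 3)} {μ : Fin 3 → F}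

theorem Rel6.comp {φ : V6 A B C → V6 A' B' C'} {φ' : V6 A'' B'' C'' → V6 A B C}
    {θ : V4 A B C ≃ V4 A' B' C'} {θ' : V4 A'' B'' C'' → V4 A B C} (h : Rel6 ε φ θ)
    (h' : Rel6 ε' φ' θ') (s : Sim4 γ π μ ν θ) : Rel6 (xor ε' ε) (φ ∘ φ') (θ ∘ θ') := fun δ => by
  obtain ⟨m', h1, h2⟩ := h' δ
  obtain ⟨m, h3, h4⟩ := h (xor δ ε')
  refine ⟨fun j => m j * γ (m' (π⁻¹ j)), fun j => mul_ne_zero (h3 j) ((map_ne_zero γ).2 (h1 _)),
    fun v => ?_⟩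
  rw [Function.comp_apply, h2, h4, s.scal, Bool.xor_assoc]
  simp only [mul_smul, Function.comp_apply]

theorem Rel6.symm {φ : V6 A B C ≃ V6 A' B' C'} {θ : V4 A B C ≃ V4 A' B' C'} (h : Rel6 ε φ θ)
    (s : Sim4 γ π μ ν θ) : Rel6 ε φ.symm θ.symm := fun δ => by
  obtain ⟨m, h1, h2⟩ := h (xor δ ε)
  refine ⟨fun j => γ⁻¹ (m (π j))⁻¹, fun j => (map_ne_zero _).2 (inv_ne_zero (h1 _)),
    fun v => φ.symm_apply_eq.2 ?_⟩
  rw [h2, s.scal, θ.apply_symm_apply, Bool.xor_assoc, Bool.xor_self, Bool.xor_false]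
  congr 2
  funext j
  beta_reduce
  rw [show π (π⁻¹ j) = j from π.apply_symm_apply j,
    show γ (γ⁻¹ (m j)⁻¹) = (m j)⁻¹ from γ.apply_symm_apply _, smul_inv_smul₀ (h1 j)]

omit [CharZero F] in
theorem Rel6.uniq {φ : V6 A B C → V6 A' B' C'} {θ θ' : V4 A B C → V4 A' B' C'} (h : Rel6 ε φ θ)
    (h' : Rel6 ε' φ θ') : ∃ m : Fin 3 → F, (∀ j, m j ≠ 0) ∧ ∀ v j, θ v j = m j • θ' v j := by
  obtain ⟨m, h1, h2⟩ := h false
  obtain ⟨m', h3, h4⟩ := h' false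
  refine ⟨fun j => (m j)⁻¹ * m' j, fun j => mul_ne_zero (inv_ne_zero (h1 j)) (h3 j),
    fun v j => ?_⟩
  have k := congrArg prj ((h2 v).symm.trans (h4 v))
  rw [prj_inj, prj_inj] at k
  rw [mul_smul, ← congrFun (mkA_inj k).2 j, inv_smul_smul₀ (h1 j)]

omit [CharZero F] in
theorem rel6_Z {z : Perm (V6 A B C)} (hz : z ∈ Z6 A B C) {y : Perm (V4 A B C)}
    (hy : y ∈ Z4 A B C) : Rel6 false z y := fun δ => by
  obtain ⟨s, t, h⟩ := mem_Z6.1 hz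
  obtain ⟨m, hm⟩ := mem_Z4.1 hy
  have h1 := ne_of_scal6 h
  have h2 := ne_of_scal hm
  have k : ∀ (s : F) (v : V4 A B C), s • mkA 0 v = mkA 0 fun j => (s * (m j)⁻¹) • y v j :=
    fun s v => by
      rw [← mkA_smul, smul_zero]
      congr 1
      funext j
      rw [hm, mul_smul, inv_smul_smul₀ (h2 j), Pi.smul_apply]
  cases δ
  · exact ⟨_, fun j => mul_ne_zero h1.1 (inv_ne_zero (h2 j)),
      fun v => (h _).trans (Prod.ext (k s v) (smul_zero _))⟩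
  · exact ⟨_, fun j => mul_ne_zero h1.2 (inv_ne_zero (h2 j)),
      fun v => (h _).trans (Prod.ext (smul_zero _) (k t v))⟩

theorem Frm.comp {φ : V6 A B C → V6 A' B' C'} {φ' : V6 A'' B'' C'' → V6 A B C} (h : Frm ε π φ)
    (h' : Frm ε' π' φ') (s : Semi γ φ) : Frm (xor ε' ε) (π * π') (φ ∘ φ') := fun i δ => by
  obtain ⟨c', h1⟩ := h' i δ
  obtain ⟨c, h2⟩ := h (π' i) (xor δ ε')
  exact ⟨γ c' * c, by rw [Function.comp_apply, h1, s.smul, h2, smul_smul, Bool.xor_assoc]; rfl⟩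

theorem Frm.symm {φ : V6 A B C ≃ V6 A' B' C'} (h : Frm ε π φ) (s : Semi γ φ) :
    Frm ε π⁻¹ φ.symm := fun i δ => by
  obtain ⟨c, h1⟩ := h (π⁻¹ i) (xor δ ε)
  rw [Bool.xor_assoc, Bool.xor_self, Bool.xor_false,
    show π (π⁻¹ i) = i from π.apply_symm_apply i] at h1
  have h2 : c ≠ 0 := fun h0 => s.ne_zero (x := inj (xor δ ε) (ee (π⁻¹ i)))
    (fun e => ee_ne _ ((prj_inj _ _).symm.trans ((congrArg prj e).trans (add_zero _))))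
    (by rw [h1, h0, zero_smul])
  refine ⟨γ⁻¹ c⁻¹, φ.symm_apply_eq.2 ?_⟩
  rw [s.smul, h1, show γ (γ⁻¹ c⁻¹) = c⁻¹ from γ.apply_symm_apply _, inv_smul_smul₀ h2]

/-- The normal form, from the off-diagonal part. -/
theorem Sim6.nf6 {φ : Perm (V6 A B C)} {ε₁ ε₂ : Bool} (h : Sim6 γ ε ν₁ ν₂ l φ) (hF : Frm ε₁ π φ)
    (hP : Par γ A B C A B C) {z : Perm (V4 A B C)} (hz : z ∈ Z4 A B C)
    (hR : Rel6 ε₂ φ fun v => z (st4 γ π' v)) : ∃ m, NF6 γ ε₁ π m φ := by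
  obtain ⟨θ, ν, c, h1, h2, h3⟩ := h.frm hF
  obtain ⟨m, h4, h5⟩ := h2.uniq hR
  obtain ⟨m', h6⟩ := mem_Z4.1 hz
  have h7 : ∀ j, m j * m' j ≠ 0 := fun j => mul_ne_zero (h4 j) (ne_of_scal h6 j)
  have h8 : (θ : V4 A B C → V4 A B C) = zs _ h7 ∘ st4 γ π' := funext fun v => funext fun j => by
    rw [h5, h6, Function.comp_apply, zs_apply, mul_smul]
  have h9 := (sim4_one.2 (sim4_scal (zs_apply _ h7))).comp (sim4_st4 (π := π') hP)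
  rw [← h8, one_mul, one_mul] at h9
  obtain rfl := h1.perm_eq h9
  refine ⟨_, h7, fun x => ?_⟩
  have k1 : ∀ i, ν / c i = (m (π i) * m' (π i)) ^ 2 := fun i => by
    simpa using (h1.nrm (fun _ => 1) i).symm.trans (h9.nrm (fun _ => 1) i)
  have k2 : ν = m 0 * m' 0 * (m 1 * m' 1) * (m 2 * m' 2) := by
    have := (h1.tri fun _ => 1).symm.trans (h9.tri fun _ => 1)
    rw [tau_one, map_ofNat] at this
    simpa using this
  refine (h3 (dgA x) (odA x)).trans ?_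
  rw [tor, st6, dgA_mkA, odA_mkA, h8]
  congr 2
  funext j
  have k3 := k1 (π⁻¹ j)
  have k4 : c (π⁻¹ j) ≠ 0 := fun h0 => h1.ne (π⁻¹ j) (by rw [h0, div_zero])
  rw [show π (π⁻¹ j) = j from π.apply_symm_apply j, k2, div_eq_iff k4] at k3
  congr 1
  rw [eq_div_iff (h7 j)]
  apply mul_left_cancel₀ (h7 j)
  have k5 : ∀ (n : Fin 3 → F) (j : Fin 3), n 0 * n 1 * n 2 = n j * (n (j + 1) * n (j + 2)) :=
    fun n j => by fin_cases j <;> simp <;> ring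
  rw [← k5 (fun j => m j * m' j) j]
  linear_combination -k3

end rel

section grp

variable {F : Type} [Field F] [CharZero F] {A B C A' B' C' : Fˣ} {Γ : Subgroup (Gl F)}
  {Φ : Subgroup (Perm (V6 A B C))} {y : V4 A B C}

/-- The group of the off-diagonal parts. -/
def off4 (Φ : Subgroup (Perm (V6 A B C))) : Subgroup (Perm (V4 A B C)) where
  carrier := {θ | ∃ φ ∈ Φ, ∃ (γ : Gl F) (ε : Bool), Semi γ φ ∧ Rel6 ε φ θ ∧
    ∃ π μ ν, Sim4 γ π μ ν θ}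
  mul_mem' := by
    rintro θ θ' ⟨φ, h1, γ, ε, h2, h3, π, μ, ν, h4⟩ ⟨φ', k1, γ', ε', k2, k3, π', μ', ν', k4⟩
    exact ⟨_, Φ.mul_mem h1 k1, _, _, h2.mul k2, h3.comp k3 h4, _, _, _, h4.comp k4⟩
  one_mem' := ⟨1, Φ.one_mem, 1, false, semi_id, rel6_Z (Z6 A B C).one_mem (Z4 A B C).one_mem,
    1, 1, 1, sim4_id⟩
  inv_mem' := by
    rintro θ ⟨φ, h1, γ, ε, h2, h3, π, μ, ν, h4⟩
    exact ⟨_, Φ.inv_mem h1, _, _, h2.inv, h3.symm h4, _, _, _, h4.symm⟩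

theorem Dat6.exists_off (h : Dat6 Γ Φ) (hF : Frame6 y Φ) {φ : Perm (V6 A B C)} (hφ : φ ∈ Φ)
    {γ : Gl F} (hγ : Semi γ φ) : ∃ θ ∈ off4 Φ, ∃ ε π μ ν, Frm ε π φ ∧ Rel6 ε φ θ ∧
      Sim4 γ π μ ν θ := by
  obtain ⟨ε, π, h1, -⟩ := hF φ hφ
  obtain ⟨_, _, _, _, h2⟩ := h.sim_of hφ hγ
  obtain ⟨θ, ν, c, h3, h4, -⟩ := h2.frm h1
  exact ⟨θ, ⟨φ, hφ, γ, ε, hγ, h4, _, _, _, h3⟩, ε, π, _, _, h1, h4, h3⟩

theorem Dat6.off (h : Dat6 Γ Φ) (hF : Frame6 y Φ) : Dat4 Γ (off4 Φ) where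
  ov := by
    refine ⟨?_, fun γ hγ => ?_⟩
    · rintro θ ⟨φ, h1, γ, ε, h2, -, π, μ, ν, h4⟩
      exact ⟨γ, h.ov.mem h1 h2, h4.semi⟩
    · obtain ⟨φ, h1, h2⟩ := h.ov.onto γ hγ
      obtain ⟨θ, h3, _, _, _, _, -, -, h4⟩ := h.exists_off hF h1 h2
      exact ⟨θ, h3, h4.semi⟩
  sim := by
    rintro θ ⟨φ, h1, γ, ε, h2, -, h4⟩
    exact ⟨γ, h.ov.mem h1 h2, h4⟩
  lin := by
    rintro θ ⟨φ, h1, γ, ε, h2, h3, π, μ, ν, h4⟩ h5
    obtain rfl := h4.semi.unique (semi_one.2 h5)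
    obtain ⟨m, -, h6⟩ := h3.uniq (rel6_Z (h.lin φ h1 h2) (Z4 A B C).one_mem)
    exact mem_Z4.2 ⟨m, h6⟩
  sat z hz := ⟨1, Φ.one_mem, 1, false, semi_id, rel6_Z (Z6 A B C).one_mem hz, 1, sim4_Z4 hz⟩

theorem Frame6.line (hF : Frame6 y Φ) (hy : ∀ i, y i ≠ 0) {θ : Perm (V4 A B C)} (hθ : θ ∈ off4 Φ)
    {γ : F → F} {π μ ν} (s : Sim4 γ π μ ν θ) (i : Fin 3) :
    ∃ c : F, θ (Pi.single i (y i)) = c • Pi.single (π i) (y (π i)) := by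
  obtain ⟨φ, h1, γ', ε, -, h3, π₁, μ₁, ν₁, h4⟩ := hθ
  obtain ⟨ε', π', -, h5⟩ := hF φ h1
  obtain ⟨c, h6⟩ := h5 i
  obtain ⟨m, h7, h8⟩ := h3 false
  have k := congrArg (fun x => odA (prj x)) ((h8 _).symm.trans h6)
  simp only [prj_smul, prj_inj, odA_smul, odA_mkA] at k
  have k1 : ∀ j, θ (Pi.single i (y i)) j =
      ((m j)⁻¹ * c) • (Pi.single (π' i) (y (π' i)) : V4 A B C) j := fun j => by
    rw [mul_smul, ← Pi.smul_apply c, ← k, inv_smul_smul₀ (h7 j)]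
  have k2 : γ = γ' := funext fun t => by
    have e1 := s.semi t (fun _ => 1) 0
    rw [h4.semi, add_left_inj] at e1
    exact (smul_left_injective F (h4.semi.ne_zero fun e => oct_one_ne (congrFun e 0)) e1).symm
  subst k2
  have k3 : π i = π' i := by
    by_contra k4
    have k5 := k1 (π i)
    rw [Pi.single_eq_of_ne k4, smul_zero] at k5
    exact s.cp_ne i (hy i) k5
  refine ⟨(m (π i))⁻¹ * c, funext fun j => ?_⟩
  rw [k1, ← k3, Pi.smul_apply]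
  by_cases k4 : j = π i
  · rw [k4]
  · rw [Pi.single_eq_of_ne k4, smul_zero, smul_zero]

theorem Dat6.nf_tr (h : Dat6 Γ Φ) (hF : Frame6 y Φ) {ψ : V6 A' B' C' ≃ V6 A B C}
    {ψ₄ : V4 A' B' C' ≃ V4 A B C} {ν₁ ν₂ l ν : F} {μ : Fin 3 → F}
    (h1 : Sim6 id false ν₁ ν₂ l ψ) (h2 : Frm false 1 ψ) (h3 : Rel6 false ψ ψ₄)
    (h4 : Sim4 id 1 μ ν ψ₄) {γ : Gl F} (hP : Par γ A' B' C' A' B' C')
    (h5 : ∀ θ ∈ off4 Φ, ∀ π μ ν, Sim4 γ π μ ν θ →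
      ∃ z ∈ Z4 A' B' C', ∀ x, θ (ψ₄ x) = ψ₄ (z (st4 γ π x)))
    {φ : Perm (V6 A' B' C')} (hφ : φ ∈ Cl.tr ψ Φ) (hγ : Semi γ φ) : ∃ ε π m, NF6 γ ε π m φ := by
  obtain ⟨θ, k1, ε, π, _, _, k2, k3, k4⟩ := h.exists_off hF (mem_tr.1 hφ)
    ((semi_congr h1.semi).2 hγ)
  obtain ⟨z, k5, k6⟩ := h5 θ k1 _ _ _ k4
  obtain ⟨_, _, _, _, k7⟩ := (h.tr h1).sim_of hφ hγ
  have e : ψ.symm ∘ ψ.permCongr φ ∘ ψ = φ := funext fun x => by simp
  have s1 := semi_one.2 h1.semi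
  have k8 := (h2.symm s1).comp (k2.comp h2 ((semi_congr h1.semi).2 hγ)) s1.symm
  have k9 := (h3.symm (sim4_one.2 h4)).comp (k3.comp h3 k4) (sim4_one.2 h4).symm
  have e2 : ψ₄.symm ∘ θ ∘ ψ₄ = fun v => z (st4 γ π v) := funext fun x => by simp [k6]
  rw [e] at k8 k9
  rw [e2] at k9
  exact ⟨_, _, k7.nf6 k8 hP k5 k9⟩

end grp

theorem frStmt (hR : R1Stmt) : FRStmt := by
  intro F _ _ Γ Φ y h hy hF
  obtain ⟨a, b, c, ha, hb, hc, ψ₄, ⟨μ, ν, h1⟩, h2⟩ := hR F Γ _ (h.off hF)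
    ⟨y, hy, fun θ hθ γ π μ ν s => hF.line hy hθ s⟩
  obtain ⟨ψ, h3, h4, h5, -⟩ := (sim4_one.2 h1).extend
  refine ⟨a, b, c, ha, hb, hc, ψ, ⟨_, _, _, h3⟩, fun i δ => ?_, fun φ hφ γ hγ s =>
    h.nf_tr hF h3 h4 h5 h1 (par_of_fx ha hb hc hγ) (fun θ hθ => h2 θ hθ γ hγ) hφ s⟩
  simpa using h4 i δ

theorem norm_of_mul {F : Type} [Field F] [CharZero F] {A B C A' B' C' : Fˣ}
    (f : Oct A B C ≃ₗ[F] Oct A' B' C') (hf : ∀ x y, f (x * y) = f x * f y) :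
    f 1 = 1 ∧ ∀ x, Oct.norm (f x) = Oct.norm x := by
  have h1 : f 1 = 1 := by
    have := hf 1 (f.symm 1)
    rwa [one_mul, f.apply_symm_apply, mul_one, eq_comm] at this
  refine ⟨h1, fun x => ?_⟩
  have h2 := hf x x
  rw [mul_self_eq, mul_self_eq, map_sub, map_smul, map_smul, h1] at h2
  have h3 : (bil x 1 - bil (f x) 1) • f x = (Oct.norm x - Oct.norm (f x)) • (1 : Oct A' B' C') := by
    rw [sub_smul, sub_smul]
    exact sub_eq_sub_iff_sub_eq_sub.1 h2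
  by_cases h4 : bil x 1 - bil (f x) 1 = 0
  · rw [h4, zero_smul] at h3
    exact (sub_eq_zero.1 ((smul_eq_zero.1 h3.symm).resolve_right oct_one_ne)).symm
  · obtain ⟨s, hs⟩ : ∃ s : F, f x = s • 1 := ⟨_, by rw [← inv_smul_smul₀ h4 (f x), h3, smul_smul]⟩
    have h5 : x = s • 1 := f.injective (by rw [hs, map_smul, h1])
    rw [hs, h5, Oct.norm_smul, Oct.norm_smul, Oct.norm_one, Oct.norm_one]

theorem fr1Stmt (hU : U4Stmt) : FR1Stmt := by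
  intro F _ _ Γ Φ h hF
  obtain ⟨a, b, c, ha, hb, hc, f, h1, h2⟩ := hU F Γ _ (h.off hF)
    fun θ hθ γ π μ ν s => hF.line (fun _ => oct_one_ne) hθ s
  obtain ⟨f1, fn⟩ := norm_of_mul f h1
  let ψ₄ : V4 a b c ≃ V4 (1 : Fˣ) 1 1 := Equiv.piCongrRight fun _ => f.toEquiv
  have s : Sim4 id 1 1 1 ψ₄ := by
    refine ⟨fun t x y => funext fun i => ?_, fun x i => (fn _).trans (one_mul _).symm,
      fun x => ?_, fun _ => one_ne_zero, one_ne_zero⟩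
    · exact (map_add f _ _).trans (congrArg (· + _) (map_smul f _ _))
    · change bil (f (x 0) * f (x 1) * f (x 2)) 1 = 1 * bil _ 1
      rw [← h1, ← h1, ← f1, bil, bil, ← map_add, fn, fn, fn, one_mul]
  obtain ⟨ψ, h3, h4, h5, h6⟩ := (sim4_one.2 s).extend
  have e : ∀ x, ψ (x, 0) = (omapA f x, 0) := fun x => by
    refine (h6 (dgA x) (odA x)).trans (Prod.ext ?_ rfl)
    ext1 <;> first | rfl | exact (congrArg (· * _) (div_one _)).trans (one_mul _)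
  have e' : ∀ x, ψ (0, x) = (0, omapA f x) := fun x => by
    rw [h3.inr]
    refine Prod.ext rfl (eq_of_tf fun w => ?_)
    obtain ⟨w, rfl⟩ := h3.pr.b1.2 w
    have k : fs6 ψ false w = omapA f w := congrArg Prod.fst (e w)
    have kb : ∀ u v, bil (f u) (f v) = bil u v := fun u v => by
      rw [bil, bil, ← map_add, fn, fn, fn]
    rw [tf_comm, h3.pr.tf, k, one_mul, tf_comm w]
    simp only [tf, omapA, kb]
    rfl
  refine ⟨a, b, c, ha, hb, hc, f, h1, fun φ hφ γ hγ hs => ?_⟩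
  obtain ⟨ε, π, m, k1, k2⟩ := h.nf_tr hF h3 h4 h5 s (par_of_fx ha hb hc hγ)
    (fun θ hθ => h2 θ hθ γ hγ) (symm_mem_tr.2 hφ) ((semi_congr (Semi.symm_lin h3.semi)).2 hs)
  refine ⟨ε, π, m, k1, fun x => ?_⟩
  have k3 := congrArg ψ (k2 x)
  rw [permCongr_apply, ψ.apply_symm_apply, Equiv.symm_symm, e] at k3
  rw [k3]
  cases ε
  · exact e _
  · exact e' _

end Vale.Agent.P011N.Cl
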