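import Vale.Agent.P011N.Cl.Defs2
import Vale.Agent.P011N.Cl.JT.Adj

/-!
Similitudes which permute the lines of the diagonal idempotents.
-/

namespace Vale.Agent.P011N.Cl

open Vale.Agent.P011.MPQ Vale.Agent.P011.D4 Vale.Agent.P011.D4.Oct Vale.Agent.P011.E6 Equiv Module
open Vale.Agent.P011.E6.Alb

section mk

variable {F : Type} [Field F] {A B C A' B' C' : Fˣ}

theorem dgA_mkA (d : Fin 3 → F) (v : V4 A B C) : dgA (mkA d v) = d :=
  funext fun i => by fin_cases i <;> rfl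

theorem odA_mkA (d : Fin 3 → F) (v : V4 A B C) : odA (mkA d v) = v :=
  funext fun i => by fin_cases i <;> rfl

theorem mkA_eta (x : Alb A B C) : mkA (dgA x) (odA x) = x := rfl

theorem mkA_add (d d' : Fin 3 → F) (v v' : V4 A B C) :
    mkA (d + d') (v + v') = mkA d v + mkA d' v' := rfl

theorem mkA_smul (t : F) (d : Fin 3 → F) (v : V4 A B C) : mkA (t • d) (t • v) = t • mkA d v := rfl

theorem dgA_add (x y : Alb A B C) : dgA (x + y) = dgA x + dgA y :=
  funext fun i => by fin_cases i <;> rfl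

theorem odA_add (x y : Alb A B C) : odA (x + y) = odA x + odA y :=
  funext fun i => by fin_cases i <;> rfl

theorem dgA_smul (t : F) (x : Alb A B C) : dgA (t • x) = t • dgA x :=
  funext fun i => by fin_cases i <;> rfl

theorem odA_smul (t : F) (x : Alb A B C) : odA (t • x) = t • odA x :=
  funext fun i => by fin_cases i <;> rfl

theorem mkA_inj {d d' : Fin 3 → F} {v v' : V4 A B C} (h : mkA d v = mkA d' v') :
    d = d' ∧ v = v' :=
  ⟨by rw [← dgA_mkA d v, h, dgA_mkA], by rw [← odA_mkA d v, h, odA_mkA]⟩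

theorem ee_eq (i : Fin 3) : (ee i : Alb A B C) = mkA (Pi.single i 1) 0 := by
  fin_cases i <;> rfl

theorem smul_ee (t : F) (i : Fin 3) : (t • ee i : Alb A B C) = mkA (Pi.single i t) 0 := by
  rw [ee_eq, ← mkA_smul, smul_zero, ← Pi.single_smul', smul_eq_mul, mul_one]

theorem ee_ne (i : Fin 3) : (ee i : Alb A B C) ≠ 0 := fun h => by
  have h1 := congrFun (congrArg dgA h) i
  rw [ee_eq, dgA_mkA, Pi.single_eq_same] at h1
  exact one_ne_zero (h1.trans (by fin_cases i <;> rfl))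

theorem mkA_split (d : Fin 3 → F) (v : V4 A B C) : mkA d v = ∑ i, d i • ee i + mkA 0 v := by
  ext1 <;> simp [Fin.sum_univ_three, mkA, ee, e1, e2, e3]

theorem cub_mkA (d : Fin 3 → F) (v : V4 A B C) :
    cub (mkA d v) = ∏ i, d i - ∑ i, d i * norm (v i) + tau v := by
  simp only [cub, mkA, tau, Fin.sum_univ_three, Fin.prod_univ_three]
  ring

theorem tf_mkA (d d' : Fin 3 → F) (v v' : V4 A B C) :
    tf (mkA d v) (mkA d' v') = ∑ i, d i * d' i + ∑ i, bil (v i) (v' i) := by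
  simp only [tf, mkA, Fin.sum_univ_three]
  ring

theorem tf_ee (x : Alb A B C) (i : Fin 3) : tf x (ee i) = dgA x i := by
  fin_cases i <;> simp [tf, ee, e1, e2, e3, dgA]

theorem cross_ee (i : Fin 3) (v : V4 A B C) :
    cross (ee i) (mkA 0 v) = -mkA 0 (Pi.single i (v i)) := by
  fin_cases i <;> ext1 <;> simp [cross, ee, e1, e2, e3, mkA]

/-- The sum of the components. -/
def prj (x : V6 A B C) : Alb A B C := x.1 + x.2

theorem prj_inj (ε : Bool) (x : Alb A B C) : prj (inj ε x) = x := by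
  cases ε <;> simp [prj, inj]

theorem prj_smul (t : F) (x : V6 A B C) : prj (t • x) = t • prj x := (smul_add t x.1 x.2).symm

theorem inj_smul (ε : Bool) (t : F) (x : Alb A B C) : inj ε (t • x) = t • inj ε x := by
  cases ε <;> simp [inj]

theorem inj_inj {ε : Bool} {x y : Alb A B C} (h : inj ε x = inj ε y) : x = y := by
  rw [← prj_inj ε x, h, prj_inj]

theorem inj_eps {ε ε' : Bool} {x y : Alb A B C} (hx : x ≠ 0) (h : inj ε x = inj ε' y) :
    ε = ε' := by
  cases ε <;> cases ε' <;> simp_all [inj]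

end mk

section fr

variable {F : Type} [Field F] [CharZero F] {A B C A' B' C' A'' B'' C'' : Fˣ} {γ γ' : Gl F}
  {ε : Bool} {ν ν' ν₁ ν₂ l : F} {π : Perm (Fin 3)} {c c' μ : Fin 3 → F}
  {f g : Alb A B C → Alb A' B' C'}

/-- The off-diagonal part of a map. -/
def offd (f : Alb A B C → Alb A' B' C') (v : V4 A B C) : V4 A' B' C' := odA (f (mkA 0 v))

theorem Pr6.off0 (h : Pr6 γ ν ν' l f g) (hg : ∀ i, g (ee i) = c' i • ee (π i)) (v : V4 A B C) :
    f (mkA 0 v) = mkA 0 (offd f v) := by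
  rw [← mkA_eta (f _)]
  congr 1
  funext j
  obtain ⟨j, rfl⟩ := π.surjective j
  have h1 := h.tf (mkA 0 v) (ee j)
  rw [hg, tf_smul_right, tf_ee, tf_ee, dgA_mkA, Pi.zero_apply, map_zero, mul_zero] at h1
  refine (mul_eq_zero.1 h1).resolve_left fun h2 => ee_ne j (h.b2.1 ?_)
  rw [hg, h2, zero_smul, h.s2.zero]

theorem Pr6.blk (h : Pr6 γ ν ν' l f g) (hf : ∀ i, f (ee i) = c i • ee (π i))
    (hg : ∀ i, g (ee i) = c' i • ee (π i)) (d : Fin 3 → F) (v : V4 A B C) :
    f (mkA d v) = mkA (fun j => c (π⁻¹ j) * γ (d (π⁻¹ j))) (offd f v) := by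
  rw [mkA_split, h.s1.add, h.s1.sum, h.off0 hg,
    mkA_split (fun j => c (π⁻¹ j) * γ (d (π⁻¹ j)))]
  congr 1
  refine Fintype.sum_equiv π _ _ fun i => ?_
  rw [h.s1.smul, hf, smul_smul, mul_comm, show π⁻¹ (π i) = i from π.symm_apply_apply i]

theorem Pr6.c_ne (h : Pr6 γ ν ν' l f g) (hf : ∀ i, f (ee i) = c i • ee (π i)) (i : Fin 3) :
    c i ≠ 0 := fun h2 => ee_ne i (h.b1.1 (by rw [hf, h2, zero_smul, h.s1.zero]))

theorem Pr6.off_sim (h : Pr6 γ ν ν' l f g) (hf : ∀ i, f (ee i) = c i • ee (π i))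
    (hg : ∀ i, g (ee i) = c' i • ee (π i)) : Sim4 γ π (fun i => ν / c i) ν (offd f) := by
  have t : ∀ x, tau (offd f x) = ν * γ (tau x) := fun x => by
    have h1 := h.c1 (mkA 0 x)
    rw [h.off0 hg, cub_mkA, cub_mkA] at h1
    simpa using h1
  refine ⟨fun t x y => ?_, fun x i => ?_, t, fun i => div_ne_zero h.ne.1 (h.c_ne hf i), h.ne.1⟩
  · rw [offd, offd, offd, ← odA_smul, ← odA_add, ← h.s1, ← mkA_smul, ← mkA_add, smul_zero,
      add_zero]
  · have h1 := h.c1 (mkA (Pi.single i 1) x)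
    have h2 : (fun j => c (π⁻¹ j) * γ ((Pi.single i 1 : Fin 3 → F) (π⁻¹ j))) =
        Pi.single (π i) (c i) := by
      funext j
      obtain ⟨j, rfl⟩ := π.surjective j
      rw [show π⁻¹ (π j) = j from π.symm_apply_apply j]
      by_cases k : j = i
      · rw [k, Pi.single_eq_same, Pi.single_eq_same, map_one, mul_one]
      · rw [Pi.single_eq_of_ne k, Pi.single_eq_of_ne (π.injective.ne k), map_zero, mul_zero]
    have h3 : ∀ (i : Fin 3) (s : F), ∏ j, (Pi.single i s : Fin 3 → F) j = 0 := fun i s => by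
      fin_cases i <;> simp [Fin.prod_univ_three]
    have h4 : ∀ (i : Fin 3) (s : F) (n : Fin 3 → F),
        ∑ j, (Pi.single i s : Fin 3 → F) j * n j = s * n i := fun i s n => by
      fin_cases i <;> simp [Fin.sum_univ_three]
    rw [h.blk hf hg, h2, cub_mkA, cub_mkA, h3, h3, h4, h4, t, map_add, map_sub, map_zero,
      one_mul] at h1
    have := h.c_ne hf i
    field_simp
    linear_combination -h1

theorem Pr6.off_bij (h : Pr6 γ ν ν' l f g) (hf : ∀ i, f (ee i) = c i • ee (π i))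
    (hg : ∀ i, g (ee i) = c' i • ee (π i)) : Function.Bijective (offd f) := by
  refine ⟨fun v w e => (mkA_inj (d := 0) (d' := 0) (h.b1.1 ?_)).2, fun w => ?_⟩
  · rw [h.off0 hg, h.off0 hg, e]
  · obtain ⟨x, hx⟩ := h.b1.2 (mkA 0 w)
    rw [← mkA_eta x, h.blk hf hg] at hx
    exact ⟨_, (mkA_inj hx).2⟩

theorem Pr6.off_dual (h : Pr6 γ ν ν' l f g) (hf : ∀ i, f (ee i) = c i • ee (π i))
    (hg : ∀ i, g (ee i) = c' i • ee (π i)) (v : V4 A B C) :
    offd g v = fun j => (l * c (π⁻¹ j) / ν) • offd f v j := by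
  funext j
  obtain ⟨i, rfl⟩ := π.surjective j
  have h1 := h.cross (ee i) (mkA 0 v)
  have s := h.swap.off_sim hg hf
  have e := (Sim4.apply (φ := Equiv.ofBijective _ (h.swap.off_bij hg hf)) s v i)
  rw [hf, h.off0 hg, cross_smul_left, cross_ee, cross_ee, h.s2.neg, h.swap.off0 hf] at h1
  rw [smul_neg, smul_neg, smul_neg, neg_inj] at h1
  have h3 := congrFun (congrArg odA h1) (π i)
  simp only [odA_smul, odA_mkA, Pi.smul_apply, Pi.single_eq_same] at h3
  rw [show π⁻¹ (π i) = i from π.symm_apply_apply i, div_eq_inv_mul, mul_smul, mul_smul, h3,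
    inv_smul_smul₀ h.ne.1]
  exact e

theorem Pr6.frame_dual (h : Pr6 γ ν ν' l f g) {θ : V4 A B C → V4 A' B' C'}
    (hf : ∀ d v, f (mkA d v) = mkA (fun j => c (π⁻¹ j) * γ (d (π⁻¹ j))) (θ v)) (hc : ∀ i, c i ≠ 0)
    (i : Fin 3) : g (ee i) = (l / c i) • ee (π i) := by
  refine eq_of_tf fun w => ?_
  obtain ⟨w, rfl⟩ := h.b1.2 w
  rw [tf_comm, h.tf, tf_smul_left, tf_comm (ee _), tf_ee, tf_ee, ← mkA_eta w, hf, dgA_mkA, dgA_mkA,
    show π⁻¹ (π i) = i from π.symm_apply_apply i]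
  have := hc i
  field_simp

variable {φ : V6 A B C ≃ V6 A' B' C'}

theorem Sim6.exists_pr (h : Sim6 γ ε ν₁ ν₂ l φ) : ∃ ν ν' f g, Pr6 γ ν ν' l f g ∧
    (∀ x, φ (inj false x) = inj ε (f x)) ∧ ∀ x, φ (inj true x) = inj (xor true ε) (g x) := by
  cases ε
  · exact ⟨_, _, _, _, h.pr, h.inl, h.inr⟩
  · exact ⟨_, _, _, _, h.pr.swap, h.inl_true, h.inr_true⟩

/-- The map `θ` is the off-diagonal part of `φ`, up to scalars. -/
def Rel6 (ε : Bool) (φ : V6 A B C → V6 A' B' C') (θ : V4 A B C → V4 A' B' C') : Prop :=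
  ∀ δ, ∃ m : Fin 3 → F, (∀ j, m j ≠ 0) ∧
    ∀ v, φ (inj δ (mkA 0 v)) = inj (xor δ ε) (mkA 0 fun j => m j • θ v j)

/-- The map permutes the lines of the diagonal idempotents. -/
def Frm (ε : Bool) (π : Perm (Fin 3)) (φ : V6 A B C → V6 A' B' C') : Prop :=
  ∀ i δ, ∃ c : F, φ (inj δ (ee i)) = c • inj (xor δ ε) (ee (π i))

theorem Sim6.frm {ε' : Bool} (h : Sim6 γ ε ν₁ ν₂ l φ) (hF : Frm ε' π φ) :
    ∃ (θ : V4 A B C ≃ V4 A' B' C') (ν : F) (c : Fin 3 → F), Sim4 γ π (fun i => ν / c i) ν θ ∧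
      Rel6 ε' φ θ ∧ ∀ d v, φ (inj false (mkA d v)) =
        inj ε' (mkA (fun j => c (π⁻¹ j) * γ (d (π⁻¹ j))) (θ v)) := by
  obtain ⟨ν, ν', f, g, hp, h1, h2⟩ := h.exists_pr
  choose c hc using hF
  obtain rfl : ε = ε' := by
    have k := hc 0 false
    rw [h1, ← inj_smul, Bool.false_xor] at k
    exact inj_eps (fun e => ee_ne 0 (hp.b1.1 (e.trans hp.s1.zero.symm))) k
  have hf : ∀ i, f (ee i) = c i false • ee (π i) := fun i => inj_inj (ε := ε) (by
    rw [← h1, hc, inj_smul, Bool.false_xor])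
  have hg : ∀ i, g (ee i) = c i true • ee (π i) := fun i => inj_inj (ε := xor true ε) (by
    rw [← h2, hc, inj_smul])
  refine ⟨Equiv.ofBijective _ (hp.off_bij hf hg), ν, _, hp.off_sim hf hg, fun δ => ?_,
    fun d v => by rw [h1, hp.blk hf hg]; rfl⟩
  cases δ
  · refine ⟨1, fun _ => one_ne_zero, fun v => ?_⟩
    rw [h1, hp.off0 hg, Bool.false_xor]
    simp
  · refine ⟨_, fun j => div_ne_zero (mul_ne_zero hp.ne.2.2 (hp.c_ne hf (π⁻¹ j))) hp.ne.1,
      fun v => ?_⟩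
    rw [h2, hp.swap.off0 hf, hp.off_dual hf hg]
    rfl

theorem Sim4.sq {θ : V4 A B C ≃ V4 A' B' C'} (h : Sim4 γ π μ ν θ) : ν ^ 2 = ∏ i, μ i := by
  have h1 := congrArg Oct.norm (h.obe (fun _ => 1) 0)
  have h2 : be (fun _ => 1 : V4 A B C) = fun _ => 1 := funext fun i => by simp [be]
  have h3 : ∀ i, norm (θ (fun _ => 1) (π i)) = μ i := fun i => by
    rw [h.nrm, Oct.norm_one, map_one, mul_one]
  have h4 : ∀ π : Perm (Fin 3), (π 0 + 1 = π 1 ∧ π 0 + 2 = π 2) ∨
      (π 0 + 1 = π 2 ∧ π 0 + 2 = π 1) := by decide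
  rw [Oct.norm_smul, Oct.norm_smul, norm_be, h2, h3] at h1
  rw [Fin.prod_univ_three]
  apply mul_right_cancel₀ (h.ne 0)
  rcases h4 π with k | k <;> rw [k.1, k.2, h3, h3] at h1 <;> linear_combination -h1

/-- The extension of a similitude of the off-diagonal part. -/
theorem Sim4.extend {θ : V4 A B C ≃ V4 A' B' C'} (h : Sim4 γ π μ ν θ) :
    ∃ φ : V6 A B C ≃ V6 A' B' C', Sim6 γ false ν (1 ^ 3 / ν) 1 φ ∧ Frm false π φ ∧
      Rel6 false φ θ ∧ ∀ d v, φ (inj false (mkA d v)) =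
        inj false (mkA (fun j => ν / μ (π⁻¹ j) * γ (d (π⁻¹ j))) (θ v)) := by
  have c0 : ∀ i, ν / μ i ≠ 0 := fun i => div_ne_zero h.ne' (h.ne i)
  let f : Alb A B C ≃ Alb A' B' C' :=
    { toFun := fun x => mkA (fun j => ν / μ (π⁻¹ j) * γ (dgA x (π⁻¹ j))) (θ (odA x))
      invFun := fun x => mkA (fun j => γ.symm ((ν / μ j)⁻¹ * dgA x (π j))) (θ.symm (odA x))
      left_inv := fun x => by
        simp only [dgA_mkA, odA_mkA, θ.symm_apply_apply]
        rw [← mkA_eta x, dgA_mkA, odA_mkA]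
        congr 1
        funext j
        rw [show π⁻¹ (π j) = j from π.symm_apply_apply j, inv_mul_cancel_left₀ (c0 j),
          γ.symm_apply_apply]
      right_inv := fun x => by
        simp only [dgA_mkA, odA_mkA, θ.apply_symm_apply, γ.apply_symm_apply]
        rw [← mkA_eta x, dgA_mkA, odA_mkA]
        congr 1
        funext j
        rw [mul_inv_cancel_left₀ (c0 _), show π (π⁻¹ j) = j from π.apply_symm_apply j] }
  have hf : ∀ d v, f (mkA d v) = mkA (fun j => ν / μ (π⁻¹ j) * γ (d (π⁻¹ j))) (θ v) :=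
    fun d v => by simp only [f, Equiv.coe_fn_mk, dgA_mkA, odA_mkA]
  have hs : Semi γ f := fun t x y => by
    rw [← mkA_eta x, ← mkA_eta y, ← mkA_smul, ← mkA_add, hf, hf, hf, ← mkA_smul, ← mkA_add, h.semi]
    congr 1
    funext j
    simp only [Pi.add_apply, Pi.smul_apply, smul_eq_mul, map_add, map_mul]
    ring
  have hc : ∀ x, cub (f x) = ν * γ (cub x) := fun x => by
    rw [← mkA_eta x, hf, cub_mkA, cub_mkA, h.tri, ← Equiv.prod_comp π, ← Equiv.sum_comp π]
    simp only [show ∀ j, π⁻¹ (π j) = j from π.symm_apply_apply, h.nrm, Fin.prod_univ_three,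
      Fin.sum_univ_three, map_add, map_sub, map_mul]
    have k := h.sq
    rw [Fin.prod_univ_three] at k
    have := h.ne 0
    have := h.ne 1
    have := h.ne 2
    field_simp
    linear_combination ν * γ (dgA x 0) * γ (dgA x 1) * γ (dgA x 2) * k
  obtain ⟨g, hp⟩ := exists_pr6 f hs hc h.ne' one_ne_zero
  have k1 : ∀ i, f (ee i) = (ν / μ i) • ee (π i) := fun i => by
    rw [smul_ee, ee_eq, hf, h.semi.zero]
    congr 1
    funext j
    obtain ⟨j, rfl⟩ := π.surjective j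
    rw [show π⁻¹ (π j) = j from π.symm_apply_apply j]
    by_cases k : j = i
    · rw [k, Pi.single_eq_same, Pi.single_eq_same, map_one, mul_one]
    · rw [Pi.single_eq_of_ne k, Pi.single_eq_of_ne (π.injective.ne k), map_zero, mul_zero]
  have k2 := hp.frame_dual hf c0
  have k3 : ∀ v, offd f v = θ v := fun v => by rw [offd, hf, odA_mkA]
  refine ⟨hp.perm, hp.sim, fun i δ => ?_, fun δ => ?_, fun d v => ?_⟩
  · cases δ
    · exact ⟨_, Prod.ext (k1 i) (hp.s2.zero.trans (smul_zero _).symm)⟩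
    · exact ⟨_, Prod.ext (hp.s1.zero.trans (smul_zero _).symm) (k2 i)⟩
  · cases δ
    · refine ⟨1, fun _ => one_ne_zero, fun v => Prod.ext ?_ hp.s2.zero⟩
      refine (hp.off0 k2 v).trans ?_
      rw [k3]
      simp [inj]
    · refine ⟨_, fun j => div_ne_zero (mul_ne_zero one_ne_zero (c0 (π⁻¹ j))) h.ne',
        fun v => Prod.ext hp.s1.zero ?_⟩
      refine (hp.swap.off0 k1 v).trans ?_
      rw [hp.off_dual k1 k2, k3]
      rfl
  · exact Prod.ext (hf d v) hp.s2.zero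

end fr

end Vale.Agent.P011N.Cl
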